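import Vale.Agent.P355.H138.TD.ABC.D

namespace Vale.Agent.P355.H138.TD.ABC

open Vale.Agent.P355 Vale.Agent.P355.H147 Vale.Agent.P355.H998.E

theorem c0 : CX 4 0 0 D cls mv 0 (Nat.add 0 2) := CX.ck 0 2 (by decide +kernel)

theorem c2 : CX 4 0 0 D cls mv 2 (Nat.add 2 2) := CX.ck 2 2 (by decide +kernel)

theorem c4 : CX 4 0 0 D cls mv 4 (Nat.add 4 2) := CX.ck 4 2 (by decide +kernel)

theorem c6 : CX 4 0 0 D cls mv 6 (Nat.add 6 2) := CX.ck 6 2 (by decide +kernel)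

theorem c8 : CX 4 0 0 D cls mv 8 (Nat.add 8 2) := CX.ck 8 2 (by decide +kernel)

theorem c10 : CX 4 0 0 D cls mv 10 (Nat.add 10 2) := CX.ck 10 2 (by decide +kernel)

theorem c12 : CX 4 0 0 D cls mv 12 (Nat.add 12 2) := CX.ck 12 2 (by decide +kernel)

theorem c14 : CX 4 0 0 D cls mv 14 (Nat.add 14 2) := CX.ck 14 2 (by decide +kernel)

theorem c16 : CX 4 0 0 D cls mv 16 (Nat.add 16 2) := CX.ck 16 2 (by decide +kernel)

theorem c18 : CX 4 0 0 D cls mv 18 (Nat.add 18 2) := CX.ck 18 2 (by decide +kernel)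

theorem c20 : CX 4 0 0 D cls mv 20 (Nat.add 20 2) := CX.ck 20 2 (by decide +kernel)

theorem c22 : CX 4 0 0 D cls mv 22 (Nat.add 22 2) := CX.ck 22 2 (by decide +kernel)

theorem c24 : CX 4 0 0 D cls mv 24 (Nat.add 24 2) := CX.ck 24 2 (by decide +kernel)

theorem c26 : CX 4 0 0 D cls mv 26 (Nat.add 26 2) := CX.ck 26 2 (by decide +kernel)

theorem cm0 : CX 4 0 0 D cls mv 0 28 := (((c0).trans ((c2).trans (c4))).trans (((c6).trans (c8)).trans ((c10).trans (c12)))).trans (((c14).trans ((c16).trans (c18))).trans (((c20).trans (c22)).trans ((c24).trans (c26))))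

end Vale.Agent.P355.H138.TD.ABC
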