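import Vale.Agent.P355.H138.TD.ABC.D

namespace Vale.Agent.P355.H138.TD.ABC

open Vale.Agent.P355 Vale.Agent.P355.H147 Vale.Agent.P355.H998.E

theorem c28 : CX 4 0 0 D cls mv 28 (Nat.add 28 2) := CX.ck 28 2 (by decide +kernel)

theorem c30 : CX 4 0 0 D cls mv 30 (Nat.add 30 3) := CX.ck 30 3 (by decide +kernel)

theorem c33 : CX 4 0 0 D cls mv 33 (Nat.add 33 3) := CX.ck 33 3 (by decide +kernel)

theorem c36 : CX 4 0 0 D cls mv 36 (Nat.add 36 3) := CX.ck 36 3 (by decide +kernel)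

theorem c39 : CX 4 0 0 D cls mv 39 (Nat.add 39 3) := CX.ck 39 3 (by decide +kernel)

theorem c42 : CX 4 0 0 D cls mv 42 (Nat.add 42 3) := CX.ck 42 3 (by decide +kernel)

theorem c45 : CX 4 0 0 D cls mv 45 (Nat.add 45 3) := CX.ck 45 3 (by decide +kernel)

theorem c48 : CX 4 0 0 D cls mv 48 (Nat.add 48 4) := CX.ck 48 4 (by decide +kernel)

theorem c52 : CX 4 0 0 D cls mv 52 (Nat.add 52 4) := CX.ck 52 4 (by decide +kernel)

theorem c56 : CX 4 0 0 D cls mv 56 (Nat.add 56 4) := CX.ck 56 4 (by decide +kernel)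

theorem c60 : CX 4 0 0 D cls mv 60 (Nat.add 60 5) := CX.ck 60 5 (by decide +kernel)

theorem c65 : CX 4 0 0 D cls mv 65 (Nat.add 65 6) := CX.ck 65 6 (by decide +kernel)

theorem c71 : CX 4 0 0 D cls mv 71 (Nat.add 71 8) := CX.ck 71 8 (by decide +kernel)

theorem cm1 : CX 4 0 0 D cls mv 28 79 := (((c28).trans ((c30).trans (c33))).trans ((c36).trans ((c39).trans (c42)))).trans (((c45).trans ((c48).trans (c52))).trans (((c56).trans (c60)).trans ((c65).trans (c71))))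

end Vale.Agent.P355.H138.TD.ABC
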