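import Vale.Agent.P355.H138.TD.ABC.D

namespace Vale.Agent.P355.H138.TD.ABC

open Vale.Agent.P355 Vale.Agent.P355.H147 Vale.Agent.P355.H998.E

theorem c79 : CX 4 0 0 D cls mv 79 (Nat.add 79 14) := CX.ck 79 14 (by decide +kernel)

theorem c93 : CX 4 0 0 D cls mv 93 (Nat.add 93 7) := CX.ck 93 7 (by decide +kernel)

theorem cm2 : CX 4 0 0 D cls mv 79 100 := (c79).trans (c93)

end Vale.Agent.P355.H138.TD.ABC
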